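import Vale.Agent.P229.Geo.Final
import Vale.Agent.P229.Test.Main
import Vale.Agent.P229.Sea.Main
import Vale.Agent.P229.Island.Main

/-!
# P229, Q1: a smooth metric on the plane without smooth local isometric immersions near a point
-/

namespace Vale.Agent.Results.P229.LocalRealizabilityFalse

open scoped RealInnerProductSpace

theorem result :
    ∃ φ : ℝ × ℝ → ℝ, ContDiff ℝ (⊤ : ℕ∞) φ ∧
      ∀ U : Set (ℝ × ℝ), IsOpen U → (0 : ℝ × ℝ) ∈ U →
        ¬∃ F : ℝ × ℝ → EuclideanSpace ℝ (Fin 3), ContDiffOn ℝ (⊤ : ℕ∞) F U ∧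
          ∀ x ∈ U, ∀ v w : ℝ × ℝ,
            ⟪fderiv ℝ F x v, fderiv ℝ F x w⟫ = Real.exp (2 * φ x) * (v.1 * w.1 + v.2 * w.2) :=
  Vale.Agent.P229.Geo.finalStatement_of_island
    (Vale.Agent.P229.Island.islandLemma_of Vale.Agent.P229.Sea.seaRegularity Vale.Agent.P229.Test.core)

end Vale.Agent.Results.P229.LocalRealizabilityFalse
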